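import Vale.Agent.P002.Bd3.B17
import Vale.Agent.P002.Bd3.B18
import Vale.Agent.P002.Bd3.B19

/-!
# Potential density of integral points for products of curves and orbifold curves
-/

namespace Vale.Agent.Results.P002.Orbifold

open Matrix NumberField Vale.Agent.P002R.Orb

/-- `X = X_1 × ... × X_k`, where `X_i` is a smooth complex curve of genus `g i` with `n i` marked
points: punctures (`m i j = 0`) and orbifold points of order `m i j`. At the marked points in `S i`
the classes `C i j` are prescribed, at the others nothing is prescribed. If the eigenvalues of the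
prescribed classes are algebraic units (for example roots of unity), some number field `L` makes
the `𝓞 L`-integral points, and the representations into `SL_r(𝓞 L)`, Zariski dense. If they are
`N`-th roots of unity and every `X_i` of genus one is compact without orbifold points or has a
puncture outside of `S i`, every number field `L ⊂ ℂ` which contains the `(2 * N * r!)`-th roots of
unity and has infinitely many integral units works. -/
theorem result (k : ℕ) (g n : Fin k → ℕ) (m : ∀ i, Fin (n i) → ℕ)
    (r : ℕ) (S : ∀ i, Set (Fin (n i))) (C : ∀ i, Fin (n i) → SpecialLinearGroup (Fin r) ℂ) :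
    ((∀ i, ∀ j ∈ S i, ∀ z, IsEigenvalue (C i j) z → IsIntegral ℤ z ∧ IsIntegral ℤ z⁻¹) →
      ∃ L : IntermediateField ℚ ℂ, FiniteDimensional ℚ L ∧
        IsDense (Rels g n m) L (Z m S C) ∧ IsDenseRep L (Z (g := g) m S C)) ∧
    ((∀ i, g i = 1 → n i = 0 ∨ ∃ j, m i j = 0 ∧ j ∉ S i) →
      ∀ N : ℕ, 0 < N → (∀ i j, m i j ≠ 0 → m i j ∣ N) →
      (∀ i, ∀ j ∈ S i, ∀ z, IsEigenvalue (C i j) z → z ^ N = 1) →
      ∀ L : IntermediateField ℚ ℂ, FiniteDimensional ℚ L →
        (∀ z : ℂ, z ^ (2 * N * r.factorial) = 1 → z ∈ L) → Infinite (𝓞 L)ˣ →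
        IsDenseRep L (Z (g := g) m S C)) :=
  main4 Vale.Agent.P002L.g01Irr Vale.Agent.P002R.g0R k g n m r S C

end Vale.Agent.Results.P002.Orbifold
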